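import Vale.Agent.P181.H382.H514.Cnt0
import Vale.Agent.P181.H382.H112.Defs

set_option autoImplicit false

/-!
# P181, LS [S2]
-/

namespace Vale.Agent.P181.H382.H514

/-- **(S2)** -/
theorem cntC : H112.CntC := fun a S T ha h => cnt0 a S T ha h

end Vale.Agent.P181.H382.H514
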