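import Mathlib

set_option autoImplicit false

/-!
# P181, LS [S2]: the number of multisets of pairs with given sums (Mathlib only)
-/

namespace Vale.Agent.P181.H382.H514

open Finset

lemma geom_le {w : ℝ} (h0 : 0 ≤ w) (h1 : w ≤ 1 / 2) (a : ℕ) :
    ∑ j : Fin (a + 1), w ^ (j : ℕ) ≤ Real.exp (2 * w) := by
  rw [Fin.sum_univ_eq_sum_range (fun j => w ^ j) (a + 1)]
  have h2 : (∑ j ∈ range (a + 1), w ^ j) * (1 - w) = 1 - w ^ (a + 1) := geom_sum_mul_neg w (a + 1)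
  have h3 : 0 < 1 - w := by linarith
  have h4 : 0 ≤ w ^ (a + 1) := by positivity
  have h5 : (∑ j ∈ range (a + 1), w ^ j) * (1 - w) ≤ (1 + 2 * w) * (1 - w) := by
    rw [h2]
    nlinarith
  have h6 := le_of_mul_le_mul_right h5 h3
  have h7 := Real.add_one_le_exp (2 * w)
  linarith

lemma sum_pow_le {x : ℝ} (h0 : 0 ≤ x) (h1 : x < 1) (n : ℕ) :
    ∑ j : Fin (n + 1), x ^ (j : ℕ) ≤ 1 / (1 - x) := by
  rw [Fin.sum_univ_eq_sum_range (fun j => x ^ j) (n + 1), le_div_iff₀ (by linarith),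
    geom_sum_mul_neg]
  have h4 : 0 ≤ x ^ (n + 1) := by positivity
  linarith

lemma pow_self_ge (S a : ℕ) (ha : 0 < a) :
    Real.exp (-(a : ℝ)) ≤ ((S : ℝ) / (S + a)) ^ S := by
  rcases Nat.eq_zero_or_pos S with h | h
  · subst h
    rw [pow_zero]
    exact Real.exp_le_one_iff.2 (by
      have : (0 : ℝ) ≤ a := Nat.cast_nonneg a
      linarith)
  · have hS : (0 : ℝ) < S := by exact_mod_cast h
    have ha' : (0 : ℝ) < a := by exact_mod_cast ha
    have h1 : Real.exp (-((a : ℝ) / S)) ≤ (S : ℝ) / (S + a) := by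
      rw [Real.exp_neg, inv_le_comm₀ (Real.exp_pos _) (by positivity)]
      have h2 := Real.add_one_le_exp ((a : ℝ) / S)
      refine le_trans (le_of_eq ?_) h2
      field_simp
      ring
    have h3 := pow_le_pow_left₀ (Real.exp_pos _).le h1 S
    refine le_trans (le_of_eq ?_) h3
    rw [← Real.exp_nat_mul]
    congr 1
    field_simp

/-- the number of multisets -/
def NP0 (a S T : ℕ) : ℕ :=
  (Finset.univ.filter fun m : Fin (S + 1) × Fin (T + 1) → Fin (a + 1) =>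
    ∑ p, (m p : ℕ) = a ∧ ∑ p, (m p : ℕ) * (p.1 : ℕ) = S ∧ ∑ p, (m p : ℕ) * (p.2 : ℕ) = T).card

lemma gen_le (a S T : ℕ) (x y z : ℝ) (hx : 0 ≤ x) (hx1 : x < 1) (hy : 0 ≤ y) (hy1 : y < 1)
    (hz : 0 ≤ z) (hz1 : z ≤ 1 / 2) :
    (NP0 a S T : ℝ) * (z ^ a * x ^ S * y ^ T) ≤ Real.exp (2 * z / ((1 - x) * (1 - y))) := by
  classical
  let w : Fin (S + 1) × Fin (T + 1) → ℝ := fun p => z * x ^ (p.1 : ℕ) * y ^ (p.2 : ℕ)
  have hw0 : ∀ p, 0 ≤ w p := fun p => by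
    simp only [w]
    positivity
  have hw1 : ∀ p, w p ≤ 1 / 2 := fun p => by
    have h1 : x ^ (p.1 : ℕ) ≤ 1 := pow_le_one₀ hx hx1.le
    have h2 : y ^ (p.2 : ℕ) ≤ 1 := pow_le_one₀ hy hy1.le
    have h3 : 0 ≤ x ^ (p.1 : ℕ) := by positivity
    have h4 : 0 ≤ y ^ (p.2 : ℕ) := by positivity
    have h5 : z * x ^ (p.1 : ℕ) ≤ z := mul_le_of_le_one_right hz h1
    have h6 : 0 ≤ z * x ^ (p.1 : ℕ) := mul_nonneg hz h3
    have h7 : w p ≤ z * x ^ (p.1 : ℕ) := mul_le_of_le_one_right h6 h2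
    linarith
  have h1 : ∑ m : Fin (S + 1) × Fin (T + 1) → Fin (a + 1), ∏ p, w p ^ ((m p : Fin (a + 1)) : ℕ) =
      ∏ p, ∑ j : Fin (a + 1), w p ^ (j : ℕ) := by
    rw [Finset.prod_univ_sum, Fintype.piFinset_univ]
  have h2 : ∀ m ∈ (Finset.univ.filter fun m : Fin (S + 1) × Fin (T + 1) → Fin (a + 1) =>
      ∑ p, (m p : ℕ) = a ∧ ∑ p, (m p : ℕ) * (p.1 : ℕ) = S ∧ ∑ p, (m p : ℕ) * (p.2 : ℕ) = T),
      ∏ p, w p ^ ((m p : Fin (a + 1)) : ℕ) = z ^ a * x ^ S * y ^ T := by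
    intro m hm
    rw [mem_filter] at hm
    obtain ⟨-, e1, e2, e3⟩ := hm
    calc ∏ p, w p ^ ((m p : Fin (a + 1)) : ℕ)
        = ∏ p, (z ^ ((m p : Fin (a + 1)) : ℕ) * x ^ (((m p : Fin (a + 1)) : ℕ) * (p.1 : ℕ)) *
            y ^ (((m p : Fin (a + 1)) : ℕ) * (p.2 : ℕ))) := by
          refine prod_congr rfl fun p _ => ?_
          simp only [w]
          rw [mul_pow, mul_pow, ← pow_mul, ← pow_mul, mul_comm (p.1 : ℕ), mul_comm (p.2 : ℕ)]
      _ = z ^ a * x ^ S * y ^ T := by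
          rw [prod_mul_distrib, prod_mul_distrib, prod_pow_eq_pow_sum, prod_pow_eq_pow_sum,
            prod_pow_eq_pow_sum, e1, e2, e3]
  have h3 : (NP0 a S T : ℝ) * (z ^ a * x ^ S * y ^ T) ≤
      ∑ m : Fin (S + 1) × Fin (T + 1) → Fin (a + 1), ∏ p, w p ^ ((m p : Fin (a + 1)) : ℕ) := by
    unfold NP0
    rw [← nsmul_eq_mul, ← sum_const, ← sum_congr rfl h2]
    exact sum_le_sum_of_subset_of_nonneg (filter_subset _ _)
      fun m _ _ => prod_nonneg fun p _ => pow_nonneg (hw0 p) _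
  refine h3.trans ?_
  rw [h1]
  have h4 : ∏ p, ∑ j : Fin (a + 1), w p ^ (j : ℕ) ≤ ∏ p, Real.exp (2 * w p) :=
    prod_le_prod (fun p _ => sum_nonneg fun j _ => pow_nonneg (hw0 p) _)
      fun p _ => geom_le (hw0 p) (hw1 p) a
  refine h4.trans ?_
  rw [← Real.exp_sum]
  refine Real.exp_le_exp.2 ?_
  have h5 : ∑ p, w p = z * ((∑ s : Fin (S + 1), x ^ (s : ℕ)) * ∑ t : Fin (T + 1), y ^ (t : ℕ)) := by
    rw [sum_mul_sum, mul_sum, Fintype.sum_prod_type]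
    refine sum_congr rfl fun s _ => ?_
    rw [mul_sum]
    refine sum_congr rfl fun t _ => ?_
    simp only [w]
    ring
  rw [← mul_sum, h5]
  have h6 := sum_pow_le hx hx1 S
  have h7 := sum_pow_le hy hy1 T
  have h8 : 0 ≤ ∑ t : Fin (T + 1), y ^ (t : ℕ) := sum_nonneg fun t _ => pow_nonneg hy _
  have hx2 : 0 < 1 - x := by linarith
  have hy2 : 0 < 1 - y := by linarith
  have h9 : (∑ s : Fin (S + 1), x ^ (s : ℕ)) * ∑ t : Fin (T + 1), y ^ (t : ℕ) ≤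
      1 / (1 - x) * (1 / (1 - y)) := mul_le_mul h6 h7 h8 (by positivity)
  calc 2 * (z * ((∑ s : Fin (S + 1), x ^ (s : ℕ)) * ∑ t : Fin (T + 1), y ^ (t : ℕ)))
      ≤ 2 * (z * (1 / (1 - x) * (1 / (1 - y)))) := by gcongr
    _ = 2 * z / ((1 - x) * (1 - y)) := by
      field_simp

theorem cnt0 (a S T : ℕ) (ha : 0 < a) (h : 2 * a ^ 3 ≤ (S + a) * (T + a)) :
    NP0 a S T * a ^ (3 * a) ≤ (55 * ((S + a) * (T + a))) ^ a := by
  have ha' : (0 : ℝ) < a := by exact_mod_cast ha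
  have hS0 : (0 : ℝ) ≤ S := Nat.cast_nonneg S
  have hT0 : (0 : ℝ) ≤ T := Nat.cast_nonneg T
  have hSa : (0 : ℝ) < S + a := by linarith
  have hTa : (0 : ℝ) < T + a := by linarith
  have hP : (0 : ℝ) < (S + a) * (T + a) := mul_pos hSa hTa
  have hz1 : (a : ℝ) ^ 3 / ((S + a) * (T + a)) ≤ 1 / 2 := by
    rw [div_le_iff₀ hP]
    have : (2 : ℝ) * a ^ 3 ≤ (S + a) * (T + a) := by exact_mod_cast h
    linarith
  have hx1 : (S : ℝ) / (S + a) < 1 := by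
    rw [div_lt_one hSa]
    linarith
  have hy1 : (T : ℝ) / (T + a) < 1 := by
    rw [div_lt_one hTa]
    linarith
  have h1 := gen_le a S T ((S : ℝ) / (S + a)) ((T : ℝ) / (T + a)) ((a : ℝ) ^ 3 / ((S + a) * (T + a)))
    (by positivity) hx1 (by positivity) hy1 (by positivity) hz1
  have h2 : 2 * ((a : ℝ) ^ 3 / ((S + a) * (T + a))) /
      ((1 - (S : ℝ) / (S + a)) * (1 - (T : ℝ) / (T + a))) = 2 * a := by
    have e1 : 1 - (S : ℝ) / (S + a) = a / (S + a) := by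
      field_simp
      ring
    have e2 : 1 - (T : ℝ) / (T + a) = a / (T + a) := by
      field_simp
      ring
    rw [e1, e2]
    field_simp
  rw [h2] at h1
  have hxS := pow_self_ge S a ha
  have hyT := pow_self_ge T a ha
  obtain ⟨z, hz⟩ : ∃ z, z = (a : ℝ) ^ 3 / ((S + a) * (T + a)) := ⟨_, rfl⟩
  have hz0 : 0 ≤ z := by
    rw [hz]
    positivity
  rw [← hz] at h1
  have hN : (0 : ℝ) ≤ NP0 a S T := Nat.cast_nonneg _
  have h3 : (NP0 a S T : ℝ) * z ^ a * (Real.exp (-(a : ℝ)) * Real.exp (-(a : ℝ))) ≤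
      Real.exp (2 * a) := by
    refine le_trans ?_ h1
    have h4 : Real.exp (-(a : ℝ)) * Real.exp (-(a : ℝ)) ≤
        ((S : ℝ) / (S + a)) ^ S * ((T : ℝ) / (T + a)) ^ T :=
      mul_le_mul hxS hyT (Real.exp_pos _).le (by positivity)
    calc (NP0 a S T : ℝ) * z ^ a * (Real.exp (-(a : ℝ)) * Real.exp (-(a : ℝ)))
        ≤ (NP0 a S T : ℝ) * z ^ a * (((S : ℝ) / (S + a)) ^ S * ((T : ℝ) / (T + a)) ^ T) :=
          mul_le_mul_of_nonneg_left h4 (by positivity)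
      _ = _ := by ring
  have h5 : (NP0 a S T : ℝ) * z ^ a ≤ Real.exp (4 * a) := by
    have h6 := mul_le_mul_of_nonneg_right h3 (Real.exp_pos (2 * (a : ℝ))).le
    have e1 : Real.exp (-(a : ℝ)) * Real.exp (-(a : ℝ)) * Real.exp (2 * (a : ℝ)) = 1 := by
      rw [← Real.exp_add, ← Real.exp_add]
      have : -(a : ℝ) + -(a : ℝ) + 2 * a = 0 := by ring
      rw [this, Real.exp_zero]
    have e2 : Real.exp (2 * (a : ℝ)) * Real.exp (2 * (a : ℝ)) = Real.exp (4 * a) := by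
      rw [← Real.exp_add]
      congr 1
      ring
    rw [e2, mul_assoc, e1, mul_one] at h6
    exact h6
  have h7 : Real.exp (4 * (a : ℝ)) ≤ 55 ^ a := by
    have e1 : Real.exp (4 * (a : ℝ)) = (Real.exp 1 ^ 4) ^ a := by
      rw [← Real.exp_nat_mul, ← Real.exp_nat_mul]
      congr 1
      push_cast
      ring
    rw [e1]
    refine pow_le_pow_left₀ (by positivity) ?_ a
    have h8 : Real.exp 1 ≤ 2.7182818286 := Real.exp_one_lt_d9.le
    calc Real.exp 1 ^ 4 ≤ (2.7182818286 : ℝ) ^ 4 := pow_le_pow_left₀ (Real.exp_pos _).le h8 4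
      _ ≤ 55 := by norm_num
  have h9 : (NP0 a S T : ℝ) * (a : ℝ) ^ (3 * a) ≤ (55 * (((S : ℝ) + a) * (T + a))) ^ a := by
    have e1 : (a : ℝ) ^ (3 * a) = z ^ a * (((S : ℝ) + a) * (T + a)) ^ a := by
      rw [pow_mul, ← mul_pow, hz]
      congr 1
      field_simp
    have e2 : (55 * (((S : ℝ) + a) * (T + a))) ^ a = 55 ^ a * (((S : ℝ) + a) * (T + a)) ^ a :=
      mul_pow _ _ _
    rw [e1, e2, ← mul_assoc]
    exact mul_le_mul_of_nonneg_right (h5.trans h7) (pow_nonneg hP.le a)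
  exact_mod_cast h9

end Vale.Agent.P181.H382.H514
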